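import Vale.Agent.P165.Main

/-!
Nonuniqueness phase for high-dimensional Cartesian products of nonamenable regular
quasi-transitive graphs.
-/

open P165

namespace Vale.Agent.Results.P165.HighDimProducts

theorem result (D : ℕ) (θ η c : ℝ) (hθ : 0 < θ) (hη : 0 < η) (hc : 1 < c) :
    ∃ n0 : ℕ, ∀ n, n0 ≤ n → ∀ (V : Fin n → Type) (G : ∀ i, SimpleGraph (V i)) (d : Fin n → ℕ)
        (I : Finset (Fin n)),
      (∀ i, (G i).Connected) → (∀ i, QuasiTransitive (G i)) →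
      (∀ i a, ((G i).neighborSet a).Finite ∧ ((G i).neighborSet a).ncard = d i) →
      (∀ i, d i ≤ D) → θ * n ≤ I.card →
      (∀ i ∈ I, ∀ A : Finset (V i),
        η * A.card ≤ {b | b ∉ A ∧ ∃ a ∈ A, (G i).Adj a b}.ncard) →
      (piProd G).Connected ∧ QuasiTransitive (piProd G) ∧
      (∀ x, ((piProd G).neighborSet x).Finite) ∧
      (∃ η' : ℝ, 0 < η' ∧ ∀ A : Finset (∀ i, V i),
        η' * A.card ≤ {b | b ∉ A ∧ ∃ a ∈ A, (piProd G).Adj a b}.ncard) ∧
      pc (piProd G) < pu (piProd G) ∧ pc (piProd G) * ((∑ i, d i : ℕ) : ℝ) ≤ c :=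
  product_pc_lt_pu D θ η c hθ hη hc

end Vale.Agent.Results.P165.HighDimProducts
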